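import Vale.Agent.P073Z.DER
import Vale.Agent.P073Z.A1b

/-!
# Facts about derived coordinates
-/

open Set Metric Topology Filter
open scoped NNReal

namespace P073

variable {E : Type} [NormedAddCommGroup E] [NormedSpace ℝ E]

/-- a function which is Lipschitz on a closed set containing its support -/
theorem lipschitzWith_of_support {F : Type} [NormedAddCommGroup F] {f : E → F} {C : Set E}
    {M : ℝ≥0} (hf : Continuous f) (hC : IsClosed C) (h0 : ∀ x, x ∉ C → f x = 0)
    (hM : LipschitzOnWith M f C) : LipschitzWith M f := by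
  have key : ∀ x ∈ C, ∀ y, y ∉ C → dist (f x) (f y) ≤ M * dist x y := by
    intro x hx y hy
    have hγ : Continuous fun s : ℝ => x + s • (y - x) := by fun_prop
    have hT : IsCompact (Icc (0:ℝ) 1 ∩ {s | x + s • (y - x) ∈ C}) :=
      isCompact_Icc.inter_right (hC.preimage hγ)
    obtain ⟨s, ⟨hs, hsC⟩, hmax⟩ := hT.exists_isGreatest
      ⟨0, ⟨le_rfl, zero_le_one⟩, by simpa using hx⟩
    have hs1 : s < 1 := lt_of_le_of_ne hs.2 fun h => hy (by simpa [h] using hsC)
    have h1 : f (x + s • (y - x)) = 0 := by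
      have h2 : IsClosed {u : ℝ | f (x + u • (y - x)) = 0} :=
        isClosed_eq (hf.comp hγ) continuous_const
      have h3 : Ioo s 1 ⊆ {u : ℝ | f (x + u • (y - x)) = 0} := fun u hu =>
        h0 _ fun h4 => not_le.2 hu.1 (hmax ⟨⟨hs.1.trans hu.1.le, hu.2.le⟩, h4⟩)
      exact h2.closure_subset_iff.2 h3 (by rw [closure_Ioo hs1.ne]; exact ⟨le_rfl, hs.2⟩)
    rw [h0 y hy, ← h1]
    refine (hM.dist_le_mul x hx _ hsC).trans (mul_le_mul_of_nonneg_left ?_ M.2)
    rw [dist_self_add_right, norm_smul, Real.norm_eq_abs, abs_of_nonneg hs.1, dist_eq_norm,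
      norm_sub_rev]
    exact mul_le_of_le_one_left (norm_nonneg _) hs.2
  refine LipschitzWith.of_dist_le_mul fun x y => ?_
  by_cases hx : x ∈ C <;> by_cases hy : y ∈ C
  · exact hM.dist_le_mul x hx y hy
  · exact key x hx y hy
  · rw [dist_comm, dist_comm x]
    exact key y hy x hx
  · rw [h0 x hx, h0 y hy, dist_self]
    positivity

/-- the union of the cofaces of a cell -/
def RCx.cst (K : RCx E) (j : K.ι) : Set E := ⋃ i, ⋃ (_ : K.cell j ⊆ K.cell i), K.cell i

namespace RCx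

variable (K : RCx E) {j : K.ι} {x : E}

theorem mem_cst : x ∈ K.cst j ↔ ∃ i, K.cell j ⊆ K.cell i ∧ x ∈ K.cell i := by
  simp only [cst, mem_iUnion, exists_prop]

theorem sub_cst (j : K.ι) : K.Sub (K.cst j) := K.sub_biUnion _

theorem isCompact_cst (j : K.ι) : IsCompact (K.cst j) :=
  (K.finite_cofaces j).isCompact_biUnion fun i _ => K.isCompact_cell i

theorem cst_subset_carrier (j : K.ι) : K.cst j ⊆ K.carrier := (K.sub_cst j).subset_carrier

theorem locCone_cst (j : K.ι) : LocCone (K.cst j) :=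
  (K.sub_cst j).locCone_of_isCompact (K.isCompact_cst j)

theorem cell_subset_cst {i : K.ι} (h : K.cell j ⊆ K.cell i) : K.cell i ⊆ K.cst j :=
  fun _ hx => K.mem_cst.2 ⟨i, h, hx⟩

end RCx

namespace Derived

variable {K : RCx E} (d : Derived K) {i j : K.ι} {x y : E}

theorem mem_carrier (h : d.t j x ≠ 0) : x ∈ K.carrier := by
  by_contra h1
  exact h (d.zero_out j x h1)

theorem pos (h : d.t j x ≠ 0) : 0 < d.t j x := lt_of_le_of_ne (d.nonneg j x) (Ne.symm h)

theorem b_mem_cell (i : K.ι) : d.b i ∈ K.cell i := (d.b_mem i).1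

theorem b_mem_carrier (i : K.ι) : d.b i ∈ K.carrier := K.cell_subset_carrier i (d.b_mem i).1

theorem b_injective : Function.Injective d.b := fun i j h =>
  K.ocell_unique (d.b_mem i) (h ▸ d.b_mem j)

/-- the support lies below every cell containing the point -/
theorem below (hx : x ∈ K.cell i) (hj : d.t j x ≠ 0) : K.cell j ⊆ K.cell i := by
  obtain ⟨m, h1, h2⟩ := K.exists_face hx
  exact ((d.top m x h1).2 j hj).trans h2

theorem eq_zero (hx : x ∈ K.cell i) (hj : ¬ K.cell j ⊆ K.cell i) : d.t j x = 0 := by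
  by_contra h
  exact hj (d.below hx h)

theorem mem_cell_iff (hx : x ∈ K.carrier) :
    x ∈ K.cell i ↔ ∀ j, d.t j x ≠ 0 → K.cell j ⊆ K.cell i := by
  refine ⟨fun h j hj => d.below h hj, fun h => ?_⟩
  obtain ⟨m, hm⟩ := K.exists_ocell hx
  exact h m (d.top m x hm).1 hm.1

theorem mem_ocell_iff :
    x ∈ K.ocell i ↔ d.t i x ≠ 0 ∧ ∀ j, d.t j x ≠ 0 → K.cell j ⊆ K.cell i := by
  refine ⟨d.top i x, fun h => ?_⟩
  obtain ⟨m, hm⟩ := K.exists_ocell (d.mem_carrier h.1)
  have h1 := d.top m x hm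
  have h2 : m = i := K.cell_injective (Subset.antisymm (h.2 m h1.1) (h1.2 i h.1))
  rwa [h2] at hm

theorem mem_bd_iff (hx : x ∈ K.cell i) : x ∈ K.bd i ↔ d.t i x = 0 := by
  constructor
  · intro h
    by_contra h1
    exact (d.mem_ocell_iff.2 ⟨h1, fun j hj => d.below hx hj⟩).2 h
  · intro h
    by_contra h1
    exact (d.top i x ⟨hx, h1⟩).1 h

theorem mem_skel_iff (hx : x ∈ K.carrier) {k : ℕ} :
    x ∈ K.skel k ↔ ∀ j, d.t j x ≠ 0 → K.dim j ≤ k := by
  obtain ⟨m, hm⟩ := K.exists_ocell hx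
  rw [K.mem_skel_iff_dim hm]
  exact ⟨fun h j hj => (K.dim_le ((d.top m x hm).2 j hj)).trans h, fun h => h m (d.top m x hm).1⟩

/-- two cells of the support with the same dimension are equal -/
theorem eq_of_dim (hi : d.t i x ≠ 0) (hj : d.t j x ≠ 0) (h : K.dim i = K.dim j) : i = j := by
  rcases d.chain x i j hi hj with h1 | h1
  · exact K.eq_of_subset_of_dim_le h1 h.ge
  · exact (K.eq_of_subset_of_dim_le h1 h.le).symm

/-- the support of a coordinate lies in the open star -/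
theorem exists_coface (h : d.t j x ≠ 0) : ∃ m, x ∈ K.ocell m ∧ K.cell j ⊆ K.cell m := by
  obtain ⟨m, hm⟩ := K.exists_ocell (d.mem_carrier h)
  exact ⟨m, hm, (d.top m x hm).2 j h⟩

theorem mem_cst (h : d.t j x ≠ 0) : x ∈ K.cst j :=
  let ⟨m, h1, h2⟩ := d.exists_coface h; K.mem_cst.2 ⟨m, h2, h1.1⟩

theorem tsupport_subset (j : K.ι) : tsupport (d.t j) ⊆ K.cst j :=
  closure_minimal (fun _ hx => d.mem_cst hx) (K.isCompact_cst j).isClosed

theorem finite_support (x : E) : {j | d.t j x ≠ 0}.Finite := by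
  by_cases hx : x ∈ K.carrier
  · obtain ⟨s, h, -⟩ := d.repr x hx
    exact s.finite_toSet.subset fun j hj => (h j).1 hj
  · exact finite_empty.subset fun j hj => hj (d.zero_out j x hx)

/-- the representation over any finite set containing the support -/
theorem repr_of (hx : x ∈ K.carrier) {s : Finset K.ι} (hs : ∀ j, d.t j x ≠ 0 → j ∈ s) :
    ∑ j ∈ s, d.t j x = 1 ∧ ∑ j ∈ s, d.t j x • d.b j = x := by
  obtain ⟨s₀, h1, h2, h3⟩ := d.repr x hx
  have h4 : s₀ ⊆ s := fun j hj => hs j ((h1 j).2 hj)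
  have h5 : ∀ j ∈ s, j ∉ s₀ → d.t j x = 0 := fun j _ hj => by
    by_contra h
    exact hj ((h1 j).1 h)
  constructor
  · rw [← h2]
    exact (Finset.sum_subset h4 h5).symm
  · refine Eq.trans ?_ h3
    exact (Finset.sum_subset h4 fun j hj hj' => by rw [h5 j hj hj', zero_smul]).symm

theorem sum_le_one (s : Finset K.ι) (x : E) : ∑ j ∈ s, d.t j x ≤ 1 := by
  classical
  by_cases hx : x ∈ K.carrier
  · obtain ⟨s₀, h1, -⟩ := d.repr x hx
    rw [← (d.repr_of hx (s := s ∪ s₀) fun j hj => Finset.mem_union_right _ ((h1 j).1 hj)).1]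
    exact Finset.sum_le_sum_of_subset_of_nonneg Finset.subset_union_left
      fun j _ _ => d.nonneg j x
  · rw [Finset.sum_eq_zero fun j _ => d.zero_out j x hx]
    exact zero_le_one

theorem le_one (j : K.ι) (x : E) : d.t j x ≤ 1 := by
  simpa using d.sum_le_one {j} x

/-- points are determined by their coordinates -/
theorem ext (hx : x ∈ K.carrier) (hy : y ∈ K.carrier) (h : ∀ j, d.t j x = d.t j y) : x = y := by
  obtain ⟨s, h1, -, h3⟩ := d.repr x hx
  rw [← h3, ← (d.repr_of hy (s := s) fun j hj => (h1 j).1 (by rwa [h])).2]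
  exact Finset.sum_congr rfl fun j _ => by rw [h]

/-- weights whose support is a chain are the coordinates of their combination -/
theorem coord' {s : Finset K.ι} {a : K.ι → ℝ} (h0 : ∀ j, 0 ≤ a j) (hs : ∀ j, a j ≠ 0 → j ∈ s)
    (hc : ∀ i j, a i ≠ 0 → a j ≠ 0 → K.cell i ⊆ K.cell j ∨ K.cell j ⊆ K.cell i)
    (h1 : ∑ j ∈ s, a j = 1) :
    (∑ j ∈ s, a j • d.b j) ∈ K.carrier ∧ ∀ j, d.t j (∑ j ∈ s, a j • d.b j) = a j := by
  classical
  have e1 : ∑ j ∈ s.filter (fun j => a j ≠ 0), a j = 1 := by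
    rw [← h1]
    exact Finset.sum_filter_ne_zero s
  have e2 : ∑ j ∈ s.filter (fun j => a j ≠ 0), a j • d.b j = ∑ j ∈ s, a j • d.b j :=
    Finset.sum_filter_of_ne fun j _ hj h => hj (by rw [h, zero_smul])
  obtain ⟨h2, h3, h4⟩ := d.coord (s.filter fun j => a j ≠ 0) a
    (fun i hi j hj => hc i j (Finset.mem_filter.1 hi).2 (Finset.mem_filter.1 hj).2)
    (fun j _ => h0 j) e1
  rw [e2] at h2 h3 h4
  refine ⟨h2, fun j => ?_⟩
  by_cases hj : a j = 0
  · rw [h4 j fun h => (Finset.mem_filter.1 h).2 hj, hj]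
  · exact h3 j (Finset.mem_filter.2 ⟨hs j hj, hj⟩)

theorem t_b_self (i : K.ι) : d.t i (d.b i) = 1 := by
  have h := (d.coord {i} (fun _ => 1) (by simp) (by simp) (by simp)).2.1 i (by simp)
  simpa using h

theorem t_b_ne (h : j ≠ i) : d.t j (d.b i) = 0 := by
  have h := (d.coord {i} (fun _ => 1) (by simp) (by simp) (by simp)).2.2 j (by simpa using h)
  simpa using h

theorem eq_of_t_b (h : d.t j (d.b i) ≠ 0) : j = i := by
  by_contra h1
  exact h (d.t_b_ne h1)

/-- the coordinates are affine along lines through two points with a common chain -/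
theorem t_line (hx : x ∈ K.carrier) (hy : y ∈ K.carrier)
    (hc : ∀ i j, d.t i x ≠ 0 → d.t j y ≠ 0 → K.cell i ⊆ K.cell j ∨ K.cell j ⊆ K.cell i)
    {θ : ℝ} (h0 : ∀ j, 0 ≤ (1 - θ) * d.t j x + θ * d.t j y) :
    x + θ • (y - x) ∈ K.carrier ∧
      ∀ j, d.t j (x + θ • (y - x)) = (1 - θ) * d.t j x + θ * d.t j y := by
  classical
  obtain ⟨s, h1, -⟩ := d.repr x hx
  obtain ⟨s', h1', -⟩ := d.repr y hy
  obtain ⟨h2, h3⟩ := d.repr_of hx (s := s ∪ s') fun j hj => Finset.mem_union_left _ ((h1 j).1 hj)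
  obtain ⟨h2', h3'⟩ := d.repr_of hy (s := s ∪ s')
    fun j hj => Finset.mem_union_right _ ((h1' j).1 hj)
  have hs : ∀ j, (1 - θ) * d.t j x + θ * d.t j y ≠ 0 → d.t j x ≠ 0 ∨ d.t j y ≠ 0 := fun j hj => by
    by_contra h
    push Not at h
    exact hj (by rw [h.1, h.2]; ring)
  have h4 := d.coord' (s := s ∪ s') (a := fun j => (1 - θ) * d.t j x + θ * d.t j y) h0
    (fun j hj => (hs j hj).elim (fun h => Finset.mem_union_left _ ((h1 j).1 h))
      fun h => Finset.mem_union_right _ ((h1' j).1 h))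
    (fun i j hi hj => by
      rcases hs i hi with h | h <;> rcases hs j hj with h' | h'
      · exact d.chain x i j h h'
      · exact hc i j h h'
      · exact (hc j i h' h).symm
      · exact d.chain y i j h h')
    (by rw [Finset.sum_add_distrib, ← Finset.mul_sum, ← Finset.mul_sum, h2, h2']; ring)
  have h5 : ∑ j ∈ s ∪ s', ((1 - θ) * d.t j x + θ * d.t j y) • d.b j = x + θ • (y - x) := by
    simp only [add_smul, mul_smul]
    rw [Finset.sum_add_distrib, ← Finset.smul_sum, ← Finset.smul_sum, h3, h3']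
    module
  rwa [h5] at h4

theorem t_comb (hx : x ∈ K.carrier) (hy : y ∈ K.carrier)
    (hc : ∀ i j, d.t i x ≠ 0 → d.t j y ≠ 0 → K.cell i ⊆ K.cell j ∨ K.cell j ⊆ K.cell i)
    {θ : ℝ} (h0 : 0 ≤ θ) (h1 : θ ≤ 1) : x + θ • (y - x) ∈ K.carrier ∧
      ∀ j, d.t j (x + θ • (y - x)) = (1 - θ) * d.t j x + θ * d.t j y :=
  d.t_line hx hy hc fun j => add_nonneg (mul_nonneg (by linarith) (d.nonneg j x))
    (mul_nonneg h0 (d.nonneg j y))

/-- along the ray from a barycentre, as long as the weight of the barycentre is nonnegative -/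
theorem t_ray (hx : x ∈ K.carrier)
    (hc : ∀ j, d.t j x ≠ 0 → K.cell i ⊆ K.cell j ∨ K.cell j ⊆ K.cell i) {s : ℝ} (h0 : 0 ≤ s)
    (h1 : 0 ≤ 1 - s + s * d.t i x) : d.b i + s • (x - d.b i) ∈ K.carrier ∧
      d.t i (d.b i + s • (x - d.b i)) = 1 - s + s * d.t i x ∧
      ∀ j, j ≠ i → d.t j (d.b i + s • (x - d.b i)) = s * d.t j x := by
  obtain ⟨h2, h3⟩ := d.t_line (θ := s) (d.b_mem_carrier i) hx
    (fun k j hk hj => by rw [d.eq_of_t_b hk]; exact hc j hj) fun j => by
      by_cases hj : j = i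
      · rw [hj, d.t_b_self, mul_one]
        exact h1
      · rw [d.t_b_ne hj, mul_zero, zero_add]
        exact mul_nonneg h0 (d.nonneg j x)
  refine ⟨h2, ?_, fun j hj => ?_⟩
  · rw [h3, d.t_b_self, mul_one]
  · rw [h3, d.t_b_ne hj, mul_zero, zero_add]

/-- near a point only finitely many coordinates are nonzero -/
theorem exists_finset (hx : x ∈ K.carrier) :
    ∃ s : Finset K.ι, ∀ᶠ y in 𝓝 x, ∀ j, d.t j y ≠ 0 → j ∈ s := by
  have h1 : (⋃ m ∈ {m | x ∈ K.cell m}, {j | K.cell j ⊆ K.cell m}).Finite :=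
    (K.finite_mem hx).biUnion fun m _ => K.finite_faces m
  refine ⟨h1.toFinset, (K.eventually_star hx).mono fun y hy j hj => ?_⟩
  obtain ⟨m, h2, h3⟩ := d.exists_coface hj
  exact h1.mem_toFinset.2 (mem_biUnion (hy m h2.1) h3)

theorem lfIn_support : LFIn (fun j => {y | d.t j y ≠ 0}) K.carrier := fun x hx => by
  obtain ⟨s, hs⟩ := d.exists_finset hx
  exact ⟨_, hs, s.finite_toSet.subset fun j ⟨_, h1, h2⟩ => h2 j h1⟩

/-- near a point the support can only grow -/
theorem eventually_ne (hx : x ∈ K.carrier) :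
    ∀ᶠ y in 𝓝[K.carrier] x, ∀ j, d.t j x ≠ 0 → d.t j y ≠ 0 := by
  have h := (eventually_all_finite (d.finite_support x)).2 fun j hj =>
    ((d.pl j).1 x hx).eventually_ne hj
  exact h.mono fun y hy j hj => hy j hj

theorem eventually_zero (hx : x ∉ K.cst j) : ∀ᶠ y in 𝓝 x, d.t j y = 0 := by
  filter_upwards [(K.isCompact_cst j).isClosed.isOpen_compl.mem_nhds hx] with y hy
  by_contra h
  exact hy (d.mem_cst h)

theorem continuous (hU : IsOpen K.carrier) (j : K.ι) : Continuous (d.t j) := by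
  refine continuous_iff_continuousAt.2 fun x => ?_
  by_cases hx : x ∈ K.carrier
  · exact (d.pl j).1.continuousAt (hU.mem_nhds hx)
  · exact continuousAt_const.congr ((d.eventually_zero
      fun h => hx (K.cst_subset_carrier j h)).mono fun y hy => hy.symm)

theorem plOn_univ (hU : IsOpen K.carrier) (j : K.ι) : PLOn (d.t j) univ := by
  refine ⟨(d.continuous hU j).continuousOn, fun x _ => ?_⟩
  by_cases hx : x ∈ K.carrier
  · obtain ⟨r, hr, H⟩ := (d.pl j).2 x hx
    obtain ⟨ε, hε, h1⟩ := Metric.nhds_basis_closedBall.mem_iff.1 (hU.mem_nhds hx)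
    refine ⟨min r ε, lt_min hr hε, fun v hv _ t ht => ⟨trivial, ?_⟩⟩
    refine (H v (hv.trans (min_le_left _ _)) (h1 ?_) t ht).2
    rw [mem_closedBall, dist_self_add_left]
    exact hv.trans (min_le_right _ _)
  · have h0 := d.eventually_zero fun h => hx (K.cst_subset_carrier j h)
    obtain ⟨ε, hε, h1⟩ := Metric.nhds_basis_closedBall.mem_iff.1 h0
    have h2 : ∀ v : E, ‖v‖ ≤ ε → d.t j (x + v) = 0 := fun v hv =>
      h1 (by rwa [mem_closedBall, dist_self_add_left])
    refine ⟨ε, hε, fun v hv _ t ht => ⟨trivial, ?_⟩⟩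
    rw [h2 v hv, h0.self_of_nhds, h2 (t • v), sub_self, smul_zero, add_zero]
    rw [norm_smul, Real.norm_eq_abs, abs_of_nonneg ht.1]
    exact (mul_le_of_le_one_left (norm_nonneg v) ht.2).trans hv

theorem exists_lipschitz [FiniteDimensional ℝ E] (hU : IsOpen K.carrier) (j : K.ι) :
    ∃ M : ℝ≥0, LipschitzWith M (d.t j) := by
  obtain ⟨M, hM⟩ := lip (K.isCompact_cst j) (K.locCone_cst j)
    (⟨(d.pl j).1.mono (K.cst_subset_carrier j),
      (d.pl j).2.mono (K.sub_cst j).conicalSet (K.cst_subset_carrier j)⟩ :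
      PLOn (d.t j) (K.cst j))
  refine ⟨M, lipschitzWith_of_support (d.continuous hU j) (K.isCompact_cst j).isClosed
    (fun x hx => ?_) hM⟩
  by_contra h
  exact hx (d.mem_cst h)

end Derived

end P073
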