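import Vale.Agent.P073Z.RCX
import Vale.Agent.P073Z.A7a.Cvx

/-!
# Rays from a relative interior point of a convex cell
-/

open Set Metric Topology Filter

namespace P073

variable {E : Type} [NormedAddCommGroup E] [NormedSpace ℝ E]

theorem mem_intrinsicInterior_iff {s : Set E} {y : E} :
    y ∈ intrinsicInterior ℝ s ↔ y ∈ affineSpan ℝ s ∧
      ∃ ε > 0, ∀ w ∈ affineSpan ℝ s, dist w y < ε → w ∈ s := by
  rw [mem_intrinsicInterior]
  constructor
  · rintro ⟨y, hy, rfl⟩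
    obtain ⟨ε, hε, h⟩ := Metric.mem_nhds_iff.1 (mem_interior_iff_mem_nhds.1 hy)
    exact ⟨y.2, ε, hε, fun w hw hd => h (show (⟨w, hw⟩ : affineSpan ℝ s) ∈ ball y ε from hd)⟩
  · rintro ⟨hy, ε, hε, h⟩
    exact ⟨⟨y, hy⟩, mem_interior_iff_mem_nhds.2
      (Metric.mem_nhds_iff.2 ⟨ε, hε, fun w hw => h w.1 w.2 hw⟩), rfl⟩

/-- the half open segment from a relative interior point is in the relative interior -/
theorem ray_mem_intrinsicInterior {s : Set E} (hs : Convex ℝ s) {p z : E}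
    (hp : p ∈ intrinsicInterior ℝ s) (hz : z ∈ s) {τ : ℝ} (h0 : 0 ≤ τ) (h1 : τ < 1) :
    p + τ • (z - p) ∈ intrinsicInterior ℝ s := by
  obtain ⟨hp1, ε, hε, h⟩ := mem_intrinsicInterior_iff.1 hp
  have hz1 := subset_affineSpan ℝ s hz
  have hq : p + τ • (z - p) ∈ affineSpan ℝ s := by
    have := (affineSpan ℝ s).smul_vsub_vadd_mem τ hz1 hp1 hp1
    rwa [vsub_eq_sub, vadd_eq_add, add_comm] at this
  have h2 : 0 < 1 - τ := by linarith
  refine mem_intrinsicInterior_iff.2 ⟨hq, (1 - τ) * ε, mul_pos h2 hε, fun w hw hd => ?_⟩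
  have h3 : (1 - τ)⁻¹ • (w - (p + τ • (z - p))) + p ∈ s := by
    refine h _ ((affineSpan ℝ s).smul_vsub_vadd_mem (1 - τ)⁻¹ hw hq hp1) ?_
    rw [dist_eq_norm, add_sub_cancel_right, norm_smul, Real.norm_eq_abs,
      abs_of_pos (inv_pos.2 h2), ← dist_eq_norm, inv_mul_lt_iff₀ h2]
    exact hd
  have h4 := hs h3 hz h2.le h0 (by ring)
  have h5 : (1 - τ) • ((1 - τ)⁻¹ • (w - (p + τ • (z - p))) + p) + τ • z = w := by
    rw [smul_add, smul_smul, mul_inv_cancel₀ h2.ne', one_smul]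
    module
  rwa [h5] at h4

/-- a ray leaves a compact set through its relative boundary -/
theorem exists_ray_end {s : Set E} (hs : IsCompact s) {p x : E} (hp : p ∈ s) (hx : x ∈ s)
    (hne : x ≠ p) : ∃ z ∈ s, z ∉ intrinsicInterior ℝ s ∧ ∃ τ ∈ Ioc (0:ℝ) 1,
      x = p + τ • (z - p) := by
  have hn : 0 < ‖x - p‖ := norm_pos_iff.2 (sub_ne_zero.2 hne)
  obtain ⟨R, hR⟩ := hs.isBounded.subset_closedBall p
  have hc : Continuous fun t : ℝ => p + t • (x - p) := by fun_prop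
  have hT : IsCompact ({t : ℝ | p + t • (x - p) ∈ s} ∩ Ici 1) := by
    refine (isCompact_Icc (a := 1) (b := R / ‖x - p‖)).of_isClosed_subset
      ((hs.isClosed.preimage hc).inter isClosed_Ici) fun t ht => ⟨ht.2, ?_⟩
    have h1 := hR ht.1
    have h2 : (1:ℝ) ≤ t := ht.2
    rw [mem_closedBall, dist_eq_norm, add_sub_cancel_left, norm_smul, Real.norm_eq_abs,
      abs_of_pos (by linarith)] at h1
    exact (le_div_iff₀ hn).2 h1
  obtain ⟨t, ⟨ht1, ht2⟩, hmax⟩ := hT.exists_isGreatest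
    ⟨1, by simpa using hx, le_refl (1:ℝ)⟩
  have ht3 : (1:ℝ) ≤ t := ht2
  have ht0 : 0 < t := by linarith
  refine ⟨p + t • (x - p), ht1, fun h => ?_, t⁻¹, ⟨inv_pos.2 ht0, inv_le_one_of_one_le₀ ht3⟩, ?_⟩
  · obtain ⟨u, hu, h1⟩ := exists_beyond hp h
    have h2 : AffineMap.lineMap p (p + t • (x - p)) u = p + (u * t) • (x - p) := by
      rw [AffineMap.lineMap_apply, vsub_eq_sub, vadd_eq_add, add_sub_cancel_left, smul_smul,
        add_comm]
    rw [h2] at h1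
    have h3 : u * t ≤ t := hmax ⟨h1, show 1 ≤ u * t by nlinarith⟩
    nlinarith
  · rw [add_sub_cancel_left, smul_smul, inv_mul_cancel₀ ht0.ne', one_smul, add_sub_cancel]

namespace RCx.Cvx

variable [FiniteDimensional ℝ E] {K : RCx E} {i : K.ι} {p x z z' : E}

theorem ray_mem_ocell (h : K.Cvx) (hp : p ∈ K.ocell i) (hz : z ∈ K.cell i) {τ : ℝ}
    (h0 : 0 ≤ τ) (h1 : τ < 1) : p + τ • (z - p) ∈ K.ocell i := by
  rw [h.ocell_eq] at hp ⊢
  exact ray_mem_intrinsicInterior (h i).1 hp hz h0 h1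

theorem exists_ray (h : K.Cvx) (hp : p ∈ K.cell i) (hx : x ∈ K.cell i) (hne : x ≠ p) :
    ∃ z ∈ K.bd i, ∃ τ ∈ Ioc (0:ℝ) 1, x = p + τ • (z - p) := by
  obtain ⟨z, h1, h2, h3⟩ := exists_ray_end (K.isCompact_cell i) hp hx hne
  refine ⟨z, ?_, h3⟩
  by_contra h4
  rw [← h.ocell_eq] at h2
  exact h2 ⟨h1, h4⟩

theorem ray_unique (h : K.Cvx) (hp : p ∈ K.ocell i) (hz : z ∈ K.bd i) (hz' : z' ∈ K.bd i)
    {τ τ' : ℝ} (h0 : 0 < τ) (h0' : 0 < τ') (he : p + τ • (z - p) = p + τ' • (z' - p)) :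
    τ = τ' ∧ z = z' := by
  have key : ∀ {z z' : E} {τ τ' : ℝ}, z ∈ K.bd i → z' ∈ K.bd i → 0 < τ → 0 < τ' →
      τ • (z - p) = τ' • (z' - p) → ¬ τ < τ' := by
    intro z z' τ τ' hz hz' h0 h0' he hlt
    have h1 := h.ray_mem_ocell hp (K.bd_subset i hz) (τ := τ'⁻¹ * τ) (by positivity)
      (by rw [inv_mul_lt_iff₀ h0']; linarith)
    rw [mul_smul, he, smul_smul, inv_mul_cancel₀ h0'.ne', one_smul, add_sub_cancel] at h1
    exact h1.2 hz'
  have he' := add_left_cancel he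
  have h1 : τ = τ' :=
    le_antisymm (not_lt.1 (key hz' hz h0' h0 he'.symm)) (not_lt.1 (key hz hz' h0 h0' he'))
  subst h1
  exact ⟨rfl, sub_left_injective (smul_right_injective E h0.ne' he')⟩

end RCx.Cvx

/-- continuity on a compact image -/
theorem continuousOn_image_of_isCompact {S T U : Type} [TopologicalSpace S] [TopologicalSpace T]
    [T2Space T] [TopologicalSpace U] {C : Set S} {L : S → T} {g : T → U} (hC : IsCompact C)
    (hC' : IsClosed C) (hL : ContinuousOn L C) (hg : ContinuousOn (fun x => g (L x)) C) :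
    ContinuousOn g (L '' C) := by
  refine continuousOn_iff_isClosed.2 fun t ht =>
    ⟨L '' (C ∩ (fun x => g (L x)) ⁻¹' t), ?_, ?_⟩
  · exact ((hC.of_isClosed_subset (hg.preimage_isClosed_of_isClosed hC' ht)
      inter_subset_left).image_of_continuousOn (hL.mono inter_subset_left)).isClosed
  · ext y
    constructor
    · rintro ⟨h1, x, hx, rfl⟩
      exact ⟨⟨x, ⟨hx, h1⟩, rfl⟩, x, hx, rfl⟩
    · rintro ⟨⟨x, ⟨hx, h1⟩, rfl⟩, -⟩
      exact ⟨h1, x, hx, rfl⟩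

end P073
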